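import Vale.Agent.P133OV.Conv
import Vale.Agent.P133OD.Dom

/-!
# P133O: absorption of the Cuntz algebra implies strong pure infiniteness
-/

namespace Vale.Agent.P133OV

open Vale.Agent.P095K Vale.Agent.P133.Statement Vale.Agent.P133OD

universe u

variable {A O B : Type u} [NonUnitalCStarAlgebra A] [CStarAlgebra O] [NonUnitalCStarAlgebra B]
  {T : A →ₗ[ℂ] O →ₗ[ℂ] B}

theorem pair (s : ℕ → O) (hs : ∀ i j, star (s i) * s j = if i = j then 1 else 0) : Pair s := by
  intro n ε hε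
  have h : CT (1 : O) fun i : Fin n => s i :=
    ⟨IsStarProjection.one O, fun i j => by rw [hs]; simp only [Fin.val_inj], fun i => one_mul _⟩
  obtain ⟨d, h1, -, -, h2⟩ := exists_dom h h (fun a : Fin 2 => s (n + a))
    (fun a b => by rw [hs]; simp only [Nat.add_left_cancel_iff, Fin.val_inj])
    (fun a => one_mul _) (fun a i => by rw [hs, if_neg (by omega)]) hε
  exact ⟨d 0, d 1, by simpa using h1 0 0, by simpa using h1 1 1, by simpa using h1 0 1,
    fun i hi => ⟨(h2 0 ⟨i, hi⟩).1, (h2 0 ⟨i, hi⟩).2, (h2 1 ⟨i, hi⟩).1, (h2 1 ⟨i, hi⟩).2⟩⟩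

theorem cenSeq (s : ℕ → O) (hs : ∀ i j, star (s i) * s j = if i = j then 1 else 0)
    (hg : Dense (StarAlgebra.adjoin ℂ (Set.range s) : Set O)) : CenSeq O :=
  cenSeq_of_pair s (top_unique fun z _ => hg z) (pair s hs)

/-- **CONV**, unconditional. -/
theorem conv [PartialOrder A] [StarOrderedRing A] (s : ℕ → O)
    (hs : ∀ i j, star (s i) * s j = if i = j then 1 else 0)
    (hg : Dense (StarAlgebra.adjoin ℂ (Set.range s) : Set O)) (hT : IsTensorProd T)
    (h : Nonempty (A ≃⋆ₐ[ℂ] B)) : StronglyPurelyInfinite A :=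
  h.elim (spi_of_tensor hT (cenSeq s hs hg))

end Vale.Agent.P133OV
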